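import Vale.Agent.P154.Pois.Main

/-!
# Poisson trees with `d` in `[4, 5)` at the critical antiferromagnetic channel

A bound on the mean chi-square magnetisation at one depth, carried below `87 / 1000`, gives
nonreconstruction.
-/

noncomputable section

namespace Vale.P154.Full

open Filter Topology
open scoped ENNReal

/-- The mean chi-square magnetisation at `lam = -1 / √d` is at most `T` at some depth. -/
def BelowAt (T d : ℝ) : Prop :=
  ∃ n, gwE (poisWeight d) n (fun t => ENNReal.ofReal (xTree 3 (-(1 / Real.sqrt d)) n t))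
    ≤ ENNReal.ofReal T

theorem belowAt_mono {T T' d : ℝ} (h : BelowAt T d) (hT : T ≤ T') : BelowAt T' d :=
  let ⟨n, hn⟩ := h
  ⟨n, hn.trans (ENNReal.ofReal_le_ofReal hT)⟩

/-- A bound stated with the radius `r` read at `r = 1 / √d`. -/
theorem belowAt_of_radius {T : ℝ} {a D : ℝ} {n : ℕ}
    (h : ∀ r : ℝ, 0 < r → r ≤ a → 1 ≤ D * r ^ 2 →
      gwE (poisWeight (1 / r ^ 2)) n (fun t => ENNReal.ofReal (xTree 3 (-r) n t))
        ≤ ENNReal.ofReal T)
    {d : ℝ} (hd : 0 < d) (ha : 0 < a) (h0 : 1 / a ^ 2 ≤ d) (h1 : d ≤ D) : BelowAt T d := by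
  have hs : 0 < Real.sqrt d := Real.sqrt_pos.2 hd
  have e : (1 / Real.sqrt d) ^ 2 = 1 / d := by rw [div_pow, one_pow, Real.sq_sqrt hd.le]
  have h2 := h (1 / Real.sqrt d) (by positivity) ?_ ?_
  · refine ⟨n, ?_⟩
    rwa [e, one_div_one_div] at h2
  · have h3 : (1 / Real.sqrt d) ^ 2 ≤ a ^ 2 := by
      rw [e, div_le_iff₀ hd]
      rw [div_le_iff₀ (by positivity)] at h0
      linarith
    exact (pow_le_pow_iff_left₀ (by positivity) ha.le (by norm_num)).1 h3
  · rw [e, mul_one_div, le_div_iff₀ hd]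
    linarith

/-- Nonreconstruction from a bound at one depth. -/
theorem aPois_crit_of_below {d : ℝ} (hd : 4 ≤ d) (h : BelowAt (87 / 1000) d) :
    Tendsto (fun n => aGW 3 (poisWeight d) (-(1 / Real.sqrt d)) n) atTop (𝓝 0) := by
  have hd0 : 0 < d := by linarith
  have hs : 2 ≤ Real.sqrt d := by
    rw [show (2 : ℝ) = Real.sqrt 4 by
      rw [show (4 : ℝ) = 2 ^ 2 by norm_num, Real.sqrt_sq (by norm_num)]]
    exact Real.sqrt_le_sqrt hd
  refine PS.aPois_zero_of_small hd0 ?_ ?_ ?_ h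
  · rw [neg_le_neg_iff]; exact one_div_le_one_div_of_le (by norm_num) hs
  · rw [neg_nonpos]; positivity
  · rw [neg_sq, div_pow, one_pow, Real.sq_sqrt hd0.le, mul_one_div, div_self hd0.ne']

/-- The window from a coarse bound and its improvement. -/
theorem pois_window_of {T : ℝ} (hDE : ∀ d : ℝ, 4 ≤ d → d < 5 → BelowAt T d)
    (hW : ∀ d : ℝ, 4 ≤ d → d < 5 → BelowAt T d → BelowAt (87 / 1000) d) :
    ∀ d : ℝ, 4 ≤ d → d < 5 →
      Tendsto (fun n => aGW 3 (poisWeight d) (-(1 / Real.sqrt d)) n) atTop (𝓝 0) :=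
  fun d h h' => aPois_crit_of_below h (hW d h h' (hDE d h h'))

end Vale.P154.Full
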