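import Vale.Agent.P154.Full.Window
import Vale.Agent.P154.Pois.DE.Data.Window
import Vale.Agent.P154.Pois.Wide.Descent

/-!
# Poisson trees: nonreconstruction at `lam = -1 / √d` for `d` in `[4, 5)`
-/

noncomputable section

namespace Vale.P154.Full

open Filter Topology

/-- The window of mean degrees for three states on Poisson trees. -/
theorem pois_window : ∀ d : ℝ, 4 ≤ d → d < 5 →
    Tendsto (fun n => aGW 3 (poisWeight d) (-(1 / Real.sqrt d)) n) atTop (𝓝 0) := by
  refine pois_window_of (T := 57 / 200) (fun d h h' => PD.below_window h h'.le)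
    fun d h _ hT => ?_
  have hd0 : 0 < d := by linarith
  have hs : 2 ≤ Real.sqrt d := Real.le_sqrt_of_sq_le (by linarith)
  refine PS.Wide.small_of_moderate hd0 ?_ ?_ ?_ hT
  · rw [neg_le_neg_iff]; exact one_div_le_one_div_of_le (by norm_num) hs
  · rw [neg_nonpos]; positivity
  · rw [neg_sq, div_pow, one_pow, Real.sq_sqrt hd0.le, mul_one_div, div_self hd0.ne']

end Vale.P154.Full
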