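import Vale.Agent.P154.AF.Main
import Vale.Agent.P154.Q3Critical
import Vale.Agent.P154.Q3Two
import Vale.Agent.P154.Q4Two

/-!
# The complete threshold from the critical antiferromagnetic channels

For three states all couplings follow from nonreconstruction at `lam = -1 / √d` on the regular tree
with `d = 4` and on Poisson trees with `d` in `[4, 5)`; all other channels need no hypothesis.
-/

noncomputable section

namespace Vale.P154.Full

open Filter Topology

/-- Three states, every coupling, regular trees. -/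
theorem q3_reg_of_critical
    (h4 : Tendsto (fun n => aReg 3 4 (-(1 / 2)) n) atTop (𝓝 0))
    {lam : ℝ} (h0 : -(1 / 2) ≤ lam) (h1 : lam ≤ 1) {d : ℕ} (hd : 2 ≤ d) :
    Tendsto (fun n => aReg 3 d lam n) atTop (𝓝 0) ↔ (d : ℝ) * lam ^ 2 ≤ 1 := by
  have hq : 2 ≤ 3 := by norm_num
  have hl : -1 / (((3 : ℕ) : ℝ) - 1) ≤ lam := by norm_num at *; linarith
  rcases le_total 0 lam with h | h
  · exact reg_threshold hq hl h1 (η := lam ^ 2 / 16) (by positivity) (fun h' => by positivity)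
      (Q3.twoPoint lam h h1) hd
  · refine q3_af_reg_of_critical (fun D hD => ?_) h0 h hd
    rcases hD.eq_or_lt with rfl | hD5
    · rw [show (1 : ℝ) / Real.sqrt ((4 : ℕ) : ℝ) = 1 / 2 by
        rw [show ((4 : ℕ) : ℝ) = 2 ^ 2 by norm_num, Real.sqrt_sq (by norm_num)]]
      exact h4
    · exact AF6.aReg_crit_five hD5

/-- Three states, every coupling, Poisson trees. -/
theorem q3_pois_of_critical
    (h4 : ∀ d : ℝ, 4 ≤ d → d < 5 →
      Tendsto (fun n => aGW 3 (poisWeight d) (-(1 / Real.sqrt d)) n) atTop (𝓝 0))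
    {lam : ℝ} (h0 : -(1 / 2) ≤ lam) (h1 : lam ≤ 1) {d : ℝ} (hd : 0 < d) :
    Tendsto (fun n => aGW 3 (poisWeight d) lam n) atTop (𝓝 0) ↔ d * lam ^ 2 ≤ 1 := by
  have hq : 2 ≤ 3 := by norm_num
  have hl : -1 / (((3 : ℕ) : ℝ) - 1) ≤ lam := by norm_num at *; linarith
  rcases le_total 0 lam with h | h
  · exact pois_threshold hq hl h1 (η := lam ^ 2 / 16) (by positivity) (fun h' => by positivity)
      (Q3.twoPoint lam h h1) hd
  · refine q3_af_pois_of_critical (fun D hD => ?_) h0 h hd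
    rcases lt_or_ge D 5 with hD5 | hD5
    · exact h4 D hD hD5
    · exact AF6.aPois_crit_five hD5

/-- Four states, nonnegative coupling, regular trees. -/
theorem q4_reg {lam : ℝ} (h0 : 0 ≤ lam) (h1 : lam ≤ 1) {d : ℕ} (hd : 2 ≤ d) :
    Tendsto (fun n => aReg 4 d lam n) atTop (𝓝 0) ↔ (d : ℝ) * lam ^ 2 ≤ 1 := by
  have hq : 2 ≤ 4 := by norm_num
  have hl : -1 / (((4 : ℕ) : ℝ) - 1) ≤ lam := by norm_num; linarith
  rcases h0.eq_or_lt with h | h
  · subst h
    exact reg_threshold hq hl h1 le_rfl (fun h => absurd rfl h) (Q4.twoPoint le_rfl h1) hd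
  · exact reg_threshold_sq hq hl h1 (η := lam ^ 4 / 10000) (by positivity) _
      (Q4.twoPoint_slack h0 h1) hd

/-- Four states, nonnegative coupling, Poisson trees. -/
theorem q4_pois {lam : ℝ} (h0 : 0 ≤ lam) (h1 : lam ≤ 1) {d : ℝ} (hd : 0 < d) :
    Tendsto (fun n => aGW 4 (poisWeight d) lam n) atTop (𝓝 0) ↔ d * lam ^ 2 ≤ 1 := by
  have hq : 2 ≤ 4 := by norm_num
  have hl : -1 / (((4 : ℕ) : ℝ) - 1) ≤ lam := by norm_num; linarith
  rcases h0.eq_or_lt with h | h
  · subst h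
    exact pois_threshold hq hl h1 le_rfl (fun h => absurd rfl h) (Q4.twoPoint le_rfl h1) hd
  · exact pois_threshold_sq hq hl h1 (η := lam ^ 4 / 10000) (by positivity) _
      (Q4.twoPoint_slack h0 h1) hd

/-- The answer to the question, from the critical antiferromagnetic channels. -/
theorem threshold_of_critical
    (h4r : Tendsto (fun n => aReg 3 4 (-(1 / 2)) n) atTop (𝓝 0))
    (h4p : ∀ d : ℝ, 4 ≤ d → d < 5 →
      Tendsto (fun n => aGW 3 (poisWeight d) (-(1 / Real.sqrt d)) n) atTop (𝓝 0))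
    (q : ℕ) (lam : ℝ)
    (hq : q = 3 ∧ -(1 / 2) ≤ lam ∨ q = 4 ∧ 0 ≤ lam) (h1 : lam ≤ 1) :
    (∀ d : ℕ, 2 ≤ d →
      (Tendsto (fun n => aReg q d lam n) atTop (𝓝 0) ↔ (d : ℝ) * lam ^ 2 ≤ 1)) ∧
    (∀ d : ℝ, 0 < d →
      (Tendsto (fun n => aGW q (poisWeight d) lam n) atTop (𝓝 0) ↔ d * lam ^ 2 ≤ 1)) := by
  rcases hq with ⟨rfl, h0⟩ | ⟨rfl, h0⟩
  · exact ⟨fun d hd => q3_reg_of_critical h4r h0 h1 hd,
      fun d hd => q3_pois_of_critical h4p h0 h1 hd⟩
  · exact ⟨fun d hd => q4_reg h0 h1 hd, fun d hd => q4_pois h0 h1 hd⟩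

end Vale.P154.Full
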