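import Vale.Agent.P154.AF4.Critical
import Vale.Agent.P154.Full.Reduce

/-!
# Three states on the regular tree: the threshold is `d * lam ^ 2 = 1` for every `d`
-/

noncomputable section

namespace Vale.P154.Full

open Filter Topology

/-- Proper colourings with three colours on the tree with four children per vertex. -/
theorem aReg_four : Tendsto (fun n => aReg 3 4 (-(1 / 2)) n) atTop (𝓝 0) :=
  AF4.aReg_four_critical

/-- Three states, every coupling, every regular tree. -/
theorem q3_reg {lam : ℝ} (h0 : -(1 / 2) ≤ lam) (h1 : lam ≤ 1) {d : ℕ} (hd : 2 ≤ d) :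
    Tendsto (fun n => aReg 3 d lam n) atTop (𝓝 0) ↔ (d : ℝ) * lam ^ 2 ≤ 1 :=
  q3_reg_of_critical aReg_four h0 h1 hd

end Vale.P154.Full
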